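import Crest.Agent.X37.Half.Bridge
import Crest.Agent.X37.Solv

/-!
# Row 37: the cascade of halving steps

Repeated halving turns a `k`-edge-connected edge list into a connected sublist all of whose cuts
are thinner by the factor `C / k`.
-/

set_option autoImplicit false

namespace Crest.Agent.X37.Half

open Crest.Agent.Lib.PT Crest.Agent.X37.IO Finset
open Crest.CombinatoricsR.Multigraph

/-! ### twelfth roots -/

/-- the integer twelfth root of `t`, if it is at most `m` -/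
def rt (m t : ℕ) : ℕ := (List.range m).countP fun i => decide ((i + 1) ^ 12 ≤ t)

theorem rt_le (m t : ℕ) : rt m t ≤ m := by
  simpa [rt] using List.countP_le_length (p := fun i => decide ((i + 1) ^ 12 ≤ t))
    (l := List.range m)

theorem rt_aux (m t : ℕ) : rt m t ^ 12 ≤ t ∧ (rt m t = m ∨ t < (rt m t + 1) ^ 12) := by
  induction m with
  | zero => simp [rt]
  | succ m ih =>
    have e : rt (m + 1) t = rt m t + if (m + 1) ^ 12 ≤ t then 1 else 0 := by
      simp [rt, List.range_succ, List.countP_append, List.countP_cons]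
    have hle := rt_le m t
    rw [e]
    split_ifs with h
    · have : rt m t = m := by
        rcases ih.2 with h1 | h1
        · exact h1
        · have := lt_of_pow_lt_pow_left₀ 12 (Nat.zero_le _) (h.trans_lt h1)
          omega
      rw [this]
      exact ⟨h, Or.inl rfl⟩
    · refine ⟨ih.1, Or.inr ?_⟩
      rcases ih.2 with h1 | h1
      · rw [add_zero, h1]; omega
      · exact h1

theorem rt_pow_le (m t : ℕ) : rt m t ^ 12 ≤ t := (rt_aux m t).1

theorem lt_rt_succ_pow {m t : ℕ} (h : t ≤ m) : t < (rt m t + 1) ^ 12 := by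
  rcases (rt_aux m t).2 with h1 | h1
  · rw [h1]
    calc t < m + 1 := by omega
      _ ≤ (m + 1) ^ 12 := Nat.le_self_pow (by norm_num) _
  · exact h1

theorem le_rt {m t R : ℕ} (h : t ≤ m) (hR : R ^ 12 ≤ t) : R ≤ rt m t := by
  have := lt_of_pow_lt_pow_left₀ 12 (Nat.zero_le _) (hR.trans_lt (lt_rt_succ_pow h))
  omega

theorem succ_pow_le {r : ℕ} (hr : 40 ≤ r) : (r + 1) ^ 12 ≤ r ^ 13 := by
  have h1 : (40 * (r + 1)) ^ 12 ≤ (41 * r) ^ 12 := Nat.pow_le_pow_left (by omega) _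
  rw [mul_pow, mul_pow] at h1
  have h2 : 41 ^ 12 * r ^ 12 ≤ 40 ^ 12 * (r * r ^ 12) := by
    rw [← mul_assoc]
    exact Nat.mul_le_mul_right _ (by omega)
  have h3 : r ^ 13 = r * r ^ 12 := by ring
  rw [h3]
  exact Nat.le_of_mul_le_mul_left (h1.trans h2) (by norm_num)

/-- halving `t` shrinks the root by a constant factor -/
theorem root_shrink {r r' t t' : ℕ} (hr : 40 ≤ r) (h1 : r' ^ 12 ≤ t') (h2 : 2 * t' ≤ t)
    (h3 : t < (r + 1) ^ 12) : 100 * r' ≤ 97 * r := by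
  by_contra hc
  have h4 : (97 * r) ^ 12 ≤ (100 * r') ^ 12 := Nat.pow_le_pow_left (by omega) _
  have h5 : (40 * (r + 1)) ^ 12 ≤ (41 * r) ^ 12 := Nat.pow_le_pow_left (by omega) _
  rw [mul_pow, mul_pow] at h4 h5
  omega

/-! ### the numerical step -/

theorem num_step {A r r' t t' : ℕ} (hr : 40 ≤ r) (hA : 2 * (A + 1) ≤ r) (hr' : 1 ≤ r')
    (hs : 100 * r' ≤ 97 * r) (hrt : r ≤ t) (ht : t * (r - A) < 2 * r * (t' + 1)) :
    (1 + (A : ℝ) / r) / 2 * ((2 * t + 1) * Real.exp (300 * (A + 1) / r)) ≤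
      (2 * t' + 1) * Real.exp (300 * (A + 1) / r') := by
  have r0 : (0 : ℝ) < r := by exact_mod_cast (by omega : 0 < r)
  have r0' : (0 : ℝ) < r' := by exact_mod_cast hr'
  have hs' : (100 : ℝ) * r' ≤ 97 * r := by exact_mod_cast hs
  have hA' : 2 * ((A : ℝ) + 1) ≤ r := by exact_mod_cast hA
  have hrt' : (r : ℝ) ≤ t := by exact_mod_cast hrt
  have ht' : (t : ℝ) * (r - A) < 2 * r * (t' + 1) := by
    have : ((t * (r - A) : ℕ) : ℝ) < ((2 * r * (t' + 1) : ℕ) : ℝ) := by exact_mod_cast ht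
    rw [Nat.cast_mul, Nat.cast_sub (by omega)] at this
    push_cast at this
    exact this
  have A0 : (0 : ℝ) ≤ A := Nat.cast_nonneg A
  set b : ℝ := (A + 1) / r with hb
  have b0 : 0 < b := by positivity
  have b1 : b ≤ 1 / 2 := by rw [hb, div_le_iff₀ r0]; linarith
  have hbr : b * r = A + 1 := by rw [hb]; field_simp
  have e1 : 300 * ((A : ℝ) + 1) / r + 8 * b ≤ 300 * (A + 1) / r' := by
    rw [le_div_iff₀ r0']
    have : 300 * ((A : ℝ) + 1) / r = 300 * b := by rw [hb]; ring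
    rw [this, ← hbr]
    nlinarith
  have e2 : Real.exp (300 * (A + 1) / r) * (1 + 8 * b) ≤ Real.exp (300 * (A + 1) / r') := by
    refine le_trans ?_ (Real.exp_le_exp.2 e1)
    rw [Real.exp_add]
    exact mul_le_mul_of_nonneg_left (by linarith [Real.add_one_le_exp (8 * b)]) (Real.exp_pos _).le
  have e3 : (A : ℝ) / r ≤ b := by rw [hb]; gcongr; linarith
  have e4 : (1 : ℝ) ≤ b * t := by nlinarith
  have e5 : (t : ℝ) * (1 - b) ≤ 2 * t' + 1 := by
    have : (r : ℝ) * (t * (1 - b)) ≤ r * (2 * t' + 1) := by nlinarith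
    exact le_of_mul_le_mul_left this r0
  have t0 : (0 : ℝ) < t := r0.trans_le hrt'
  have e6 : (1 + (A : ℝ) / r) / 2 * (2 * t + 1) ≤ (2 * t' + 1) * (1 + 8 * b) := by
    have f1 : (1 + (A : ℝ) / r) / 2 * (2 * t + 1) ≤ (1 + b) * (t * (1 + b)) := by
      have : (1 + (A : ℝ) / r) / 2 * (2 * t + 1) = (1 + A / r) * (t + 1 / 2) := by ring
      rw [this]
      exact mul_le_mul (by linarith) (by nlinarith) (by positivity) (by positivity)
    have f2 : (1 + b) * (1 + b) ≤ (1 - b) * (1 + 8 * b) := by nlinarith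
    calc _ ≤ (1 + b) * (t * (1 + b)) := f1
      _ = t * ((1 + b) * (1 + b)) := by ring
      _ ≤ t * ((1 - b) * (1 + 8 * b)) := by gcongr
      _ = t * (1 - b) * (1 + 8 * b) := by ring
      _ ≤ _ := by gcongr
  calc _ = (1 + (A : ℝ) / r) / 2 * (2 * t + 1) * Real.exp (300 * (A + 1) / r) := by ring
    _ ≤ (2 * t' + 1) * (1 + 8 * b) * Real.exp (300 * (A + 1) / r) := by gcongr
    _ = (2 * t' + 1) * (Real.exp (300 * (A + 1) / r) * (1 + 8 * b)) := by ring
    _ ≤ _ := by gcongr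

/-! ### the loop -/

/-- inputs of the core problem -/
abbrev Inp : Type := Un × ℕ × List (ℕ × ℕ)

/-- valid inputs -/
def Valid (a : Inp) : Prop :=
  1 ≤ a.2.1 ∧ Loopless a.1.n a.2.2 ∧ ∀ S, Proper a.1.n S → a.2.1 ≤ cutL a.2.2 S

/-- one round -/
def round (A R : ℕ) (half : Un × Un × ℕ × List (ℕ × ℕ) → List (ℕ × ℕ)) (a : Inp)
    (c : ℕ × List (ℕ × ℕ)) : ℕ × List (ℕ × ℕ) :=
  if R ^ 12 ≤ c.1 then
    (c.1 * (rt a.2.2.length c.1 - A) / (2 * rt a.2.2.length c.1),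
      half (a.1, ⟨rt a.2.2.length c.1⟩, c.1, c.2))
  else c

theorem rt_pt {α : Type} [Enc α] {m t : α → ℕ} (hm : PT m) (hb : PB m) (ht : PT t) :
    PT fun a => rt (m a) (t a) := by
  have h1 : PT fun q : α × ℕ => (q.2 + 1) ^ 12 :=
    PT.nat_pow (by fun_prop) (PT.const 12) (PB.const 12)
  have h2 : PT fun q : α × ℕ => t q.1 := ht.comp (PT.fst PT.id)
  exact PT.countP (hm.range hb) (PT.decide (PT.nat_le h1 h2))

theorem round_pt (A R : ℕ) {half : Un × Un × ℕ × List (ℕ × ℕ) → List (ℕ × ℕ)} (h : PT half) :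
    PT fun p : Inp × ℕ × List (ℕ × ℕ) => round A R half p.1 p.2 := by
  have h1 : PT fun p : Inp × ℕ × List (ℕ × ℕ) => rt p.1.2.2.length p.2.1 :=
    rt_pt (by fun_prop) (by fun_prop) (by fun_prop)
  have h2 : PT fun p : Inp × ℕ × List (ℕ × ℕ) => Un.mk (rt p.1.2.2.length p.2.1) :=
    PT.un_mk h1 (PB.mono (g := fun p : Inp × ℕ × List (ℕ × ℕ) => p.1.2.2.length) (by fun_prop)
      fun p => rt_le _ _)
  have h3 : PT fun p : Inp × ℕ × List (ℕ × ℕ) => p.2.1 := by fun_prop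
  unfold round
  refine PT.ite (PT.nat_le (PT.const _) h3) (PT.pair ?_ ?_) (by fun_prop)
  · exact PT.nat_div (PT.nat_mul h3 (PT.nat_sub h1 (PT.const _))) (PT.nat_mul (PT.const _) h1)
  · exact h.comp (PT.pair (by fun_prop) (PT.pair h2 (by fun_prop)))

/-- the invariant -/
structure Inv (A R : ℕ) (a : Inp) (j : ℕ) (c : ℕ × List (ℕ × ℕ)) : Prop where
  sub : c.2.Sublist a.2.2
  conn : ∀ S, Proper a.1.n S → 1 ≤ cutL c.2 S
  pc : 2 ≤ a.1.n → PCL a.1.n c.1 c.2
  le : c.1 ≤ a.2.1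
  thin : ∀ S, Proper a.1.n S → (a.2.1 : ℝ) * cutL c.2 S ≤
    (2 * c.1 + 1) * Real.exp (300 * (A + 1) / rt a.2.2.length c.1) * cutL a.2.2 S
  stop : c.1 < R ^ 12 ∨ c.1 + j ≤ a.2.1

theorem proper_zero {n : ℕ} (hn : 2 ≤ n) : Proper n {0} := by
  refine ⟨by simp; omega, by simp, fun h => ?_⟩
  have : 1 ∈ ({0} : Finset ℕ) := h ▸ mem_range.2 (by omega)
  simp at this

theorem inv_start (A R : ℕ) {a : Inp} (ha : Valid a) : Inv A R a 0 (a.2.1 / 2, a.2.2) := by
  obtain ⟨h1, h2, h3⟩ := ha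
  refine ⟨List.Sublist.refl _, fun S hS => h1.trans (h3 S hS), fun hn => ?_, Nat.div_le_self _ _,
    fun S _ => ?_, Or.inr (Nat.div_le_self _ _)⟩
  · have H : PCL a.1.n ((a.2.1 : ℝ) / 2) a.2.2 := by
      rw [pcl_iff h2]
      refine pc_of_cuts (Nat.cast_nonneg _) fun S hS hS' => ?_
      have := h3 _ (proper_vals.2 ⟨hS, hS'⟩)
      rw [cutL_vals h2] at this
      exact_mod_cast this
    refine H.of_le (by omega) ?_
    exact_mod_cast Nat.cast_div_le (α := ℝ) (m := a.2.1) (n := 2)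
  · refine mul_le_mul_of_nonneg_right ?_ (Nat.cast_nonneg _)
    have e1 : (a.2.1 : ℝ) ≤ 2 * ((a.2.1 / 2 : ℕ) : ℝ) + 1 := by
      exact_mod_cast (by omega : a.2.1 ≤ 2 * (a.2.1 / 2) + 1)
    refine e1.trans (le_mul_of_one_le_right (by positivity) ?_)
    exact Real.one_le_exp (by positivity)

theorem inv_round {A r0 R : ℕ} {half : Un × Un × ℕ × List (ℕ × ℕ) → List (ℕ × ℕ)}
    (H : ∀ (n r t : ℕ) (es : List (ℕ × ℕ)), Loopless n es → 2 ≤ n → r0 ≤ r → r ^ 12 ≤ t →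
      t ≤ r ^ 13 → PCL n t es →
      (half (⟨n⟩, ⟨r⟩, t, es)).Sublist es ∧
      PCL n ((1 - (A : ℝ) / r) * t / 2) (half (⟨n⟩, ⟨r⟩, t, es)) ∧
      ∀ S, Proper n S →
        (cutL (half (⟨n⟩, ⟨r⟩, t, es)) S : ℝ) ≤ (1 + (A : ℝ) / r) / 2 * cutL es S)
    (hR1 : 40 ≤ R) (hR2 : r0 ≤ R) (hR3 : 2 * (A + 1) ≤ R) {a : Inp} {j : ℕ}
    {c : ℕ × List (ℕ × ℕ)} (ha : Valid a) (hj : j < a.2.2.length) (h : Inv A R a j c) :
    Inv A R a (j + 1) (round A R half a c) := by
  obtain ⟨⟨n⟩, k, es⟩ := a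
  obtain ⟨t, l⟩ := c
  obtain ⟨h1, h2, h3⟩ := ha
  dsimp only at h1 h2 h3 hj
  unfold round
  split_ifs with hc
  swap
  · exact ⟨h.sub, h.conn, h.pc, h.le, h.thin, Or.inl (not_le.1 hc)⟩
  dsimp only at hc ⊢
  have hn : 2 ≤ n := by
    have := h2 _ (List.getElem_mem hj)
    omega
  have htk : t ≤ k := h.le
  have htm : t ≤ es.length := htk.trans ((h3 _ (proper_zero hn)).trans (cutL_le_length _ _))
  set r := rt es.length t with hr
  have hRr : R ≤ r := le_rt htm hc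
  have hr1 : r ^ 12 ≤ t := rt_pow_le _ _
  have hr2 : t < (r + 1) ^ 12 := lt_rt_succ_pow htm
  have hr40 : 40 ≤ r := hR1.trans hRr
  obtain ⟨g1, g2, g3⟩ := H n r t l (h2.sublist fun e he => h.sub.subset he) hn (hR2.trans hRr) hr1
    (hr2.le.trans (succ_pow_le hr40)) (h.pc hn)
  set t' := t * (r - A) / (2 * r) with ht'
  have r0' : 0 < 2 * r := by omega
  have k1 : 2 * r * t' ≤ t * (r - A) := Nat.mul_div_le _ _
  have k2 : t * (r - A) < 2 * r * (t' + 1) := Nat.lt_mul_div_succ _ r0'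
  have k3 : 2 * t' ≤ t := by
    have : r * (2 * t') ≤ r * t := by
      calc r * (2 * t') = 2 * r * t' := by ring
        _ ≤ t * (r - A) := k1
        _ ≤ t * r := Nat.mul_le_mul_left _ (Nat.sub_le _ _)
        _ = r * t := mul_comm _ _
    exact Nat.le_of_mul_le_mul_left this (by omega)
  have hrt : r ≤ t := (Nat.le_self_pow (by norm_num) r).trans hr1
  have k4 : 1 ≤ t' := by
    by_contra hlt
    have e0 : t' = 0 := by omega
    rw [e0] at k2
    have : 4 * (r - A) ≤ t * (r - A) := Nat.mul_le_mul_right _ (by omega)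
    omega
  have rpos : (0 : ℝ) < r := by exact_mod_cast (by omega : 0 < r)
  have g2' : PCL n t' (half (⟨n⟩, ⟨r⟩, t, l)) := by
    refine g2.of_le (by omega) ?_
    have : ((2 * r * t' : ℕ) : ℝ) ≤ ((t * (r - A) : ℕ) : ℝ) := by exact_mod_cast k1
    rw [Nat.cast_mul t, Nat.cast_sub (by omega)] at this
    push_cast at this
    have e : (1 - (A : ℝ) / r) * t / 2 = t * (r - A) / (2 * r) := by field_simp
    rw [e, le_div_iff₀ (by positivity)]
    linarith
  refine ⟨g1.trans h.sub, fun S hS => ?_, fun _ => g2', by dsimp only; omega, fun S hS => ?_, ?_⟩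
  · have := g2'.le_cutL hS
    have : t' ≤ cutL (half (⟨n⟩, ⟨r⟩, t, l)) S := by exact_mod_cast this
    exact k4.trans this
  · dsimp only
    have f1 := g3 S hS
    have f2 : (k : ℝ) * cutL l S ≤
        (2 * t + 1) * Real.exp (300 * (A + 1) / r) * cutL es S := h.thin S hS
    have hr' : 1 ≤ rt es.length t' := le_rt (by omega) (by simpa using k4)
    have f3 := num_step hr40 (hR3.trans hRr) hr'
      (root_shrink hr40 (rt_pow_le es.length t') k3 hr2) hrt k2
    calc (k : ℝ) * cutL (half (⟨n⟩, ⟨r⟩, t, l)) S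
        ≤ k * ((1 + (A : ℝ) / r) / 2 * cutL l S) := by gcongr
      _ = (1 + (A : ℝ) / r) / 2 * (k * cutL l S) := by ring
      _ ≤ (1 + (A : ℝ) / r) / 2 * ((2 * t + 1) * Real.exp (300 * (A + 1) / r) * cutL es S) := by
        gcongr
      _ = (1 + (A : ℝ) / r) / 2 * ((2 * t + 1) * Real.exp (300 * (A + 1) / r)) * cutL es S := by
        ring
      _ ≤ _ := by gcongr
  · have : t < R ^ 12 ∨ t + j ≤ k := h.stop
    dsimp only
    omega

/-- **The cascade.** -/
theorem core_of_half (h : HalfStatement) : CoreStatement := by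
  obtain ⟨A, r0, half, hpt, H⟩ := h
  set R := 40 + r0 + 2 * (A + 1) with hR
  have S : Solvable Valid fun (a : Inp) (c : ℕ × List (ℕ × ℕ)) => Inv A R a a.2.2.length c := by
    refine Solvable.iter (Inv A R) (n := fun a => a.2.2.length) (by fun_prop) (by fun_prop)
      ⟨fun a => (a.2.1 / 2, a.2.2), by fun_prop, fun a ha => inv_start A R ha⟩
      (round_pt A R hpt)
      (fun a j c ha hj hc => inv_round H (by omega) (by omega) (by omega) ha hj hc)
      (B := fun a => 2 * sz a.2.1 + sz a.2.2 + 1) (by fun_prop) fun a j c _ _ hc => ?_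
    have h1 := sz_nat_le_of_le hc.le
    have h2 := sz_sublist hc.sub
    have h3 : sz c = sz c.1 + sz c.2 + 1 := rfl
    omega
  obtain ⟨F, hF, hS⟩ := S
  refine ⟨(2 * (R : ℝ) ^ 12 + 1) * Real.exp (300 * (A + 1)), fun a => (F a).2, by positivity,
    by fun_prop, fun n k es h1 h2 h3 => ?_⟩
  have I := hS (⟨n⟩, k, es) ⟨h1, h2, h3⟩
  refine ⟨fun e he => I.sub.subset he, fun S hS => ⟨I.conn S hS, ?_⟩⟩
  have f1 : (k : ℝ) * cutL (F (⟨n⟩, k, es)).2 S ≤ (2 * (F (⟨n⟩, k, es)).1 + 1) *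
      Real.exp (300 * (A + 1) / rt es.length (F (⟨n⟩, k, es)).1) * cutL es S := I.thin S hS
  have f2 : (F (⟨n⟩, k, es)).1 < R ^ 12 ∨ (F (⟨n⟩, k, es)).1 + es.length ≤ k := I.stop
  have f3 : k ≤ es.length := (h3 S hS).trans (cutL_le_length _ _)
  have f4 : (F (⟨n⟩, k, es)).1 ≤ R ^ 12 := by omega
  have f5 : ((F (⟨n⟩, k, es)).1 : ℝ) ≤ (R : ℝ) ^ 12 := by exact_mod_cast f4
  have kpos : (0 : ℝ) < k := by exact_mod_cast h1
  have f6 : 300 * ((A : ℝ) + 1) / rt es.length (F (⟨n⟩, k, es)).1 ≤ 300 * (A + 1) := by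
    rcases Nat.eq_zero_or_pos (rt es.length (F (⟨n⟩, k, es)).1) with h0 | h0
    · rw [h0]; simp; positivity
    · exact div_le_self (by positivity) (by exact_mod_cast h0)
  rw [div_mul_eq_mul_div, le_div_iff₀ kpos, mul_comm]
  refine f1.trans ?_
  gcongr

end Crest.Agent.X37.Half
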