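import Crest.Agent.X37.Half.Defs
import Crest.Agent.X37.Gr.Classes
import Crest.Agent.X37.Inner.Defs

/-!
# Row 37: masks, sublists and partition connectivity of lists
-/

set_option autoImplicit false

namespace Crest.Agent.X37.Half

open Crest.Agent.Lib.PT Crest.Agent.X37.IO Finset
open Crest.CombinatoricsR.Multigraph

/-- the edges selected by a mask, as a list -/
def sel (es : List (ℕ × ℕ)) (mask : List Bool) : List (ℕ × ℕ) :=
  ((List.range es.length).filter fun i => mask.getD i false).map fun i => es.getD i (0, 0)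

theorem map_getD_range (es : List (ℕ × ℕ)) :
    (List.range es.length).map (fun i => es.getD i (0, 0)) = es := by
  refine List.ext_getElem (by simp) fun i h1 h2 => ?_
  simp [List.getD_eq_getElem?_getD, h2]

theorem sel_sublist (es : List (ℕ × ℕ)) (mask : List Bool) : (sel es mask).Sublist es := by
  conv_rhs => rw [← map_getD_range es]
  exact List.filter_sublist.map _

@[fun_prop] theorem sel_pt {α : Type} [Enc α] {es : α → List (ℕ × ℕ)} {mask : α → List Bool}
    (h1 : PT es) (h2 : PT mask) : PT fun a => sel (es a) (mask a) := by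
  unfold sel; fun_prop

theorem countP_sel (es : List (ℕ × ℕ)) (mask : List Bool) (p : ℕ × ℕ → Bool) :
    (sel es mask).countP p =
      ((Inner.maskF es.length mask).filter fun i => p (es.get i) = true).card := by
  rw [sel, List.countP_map, List.countP_filter, List.countP_eq_length_filter,
    ← List.toFinset_card_of_nodup (List.nodup_range.filter _)]
  symm
  refine card_bij (fun i _ => (i : ℕ)) ?_ (fun i _ j _ h => Fin.ext h) ?_
  · intro i hi
    simp only [Inner.maskF, mem_filter, mem_univ, true_and] at hi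
    simp only [List.mem_toFinset, List.mem_filter, List.mem_range, Function.comp_apply,
      Bool.and_eq_true]
    refine ⟨i.2, ?_, hi.1⟩
    rw [List.getD_eq_getElem _ _ i.2]
    exact hi.2
  · intro i hi
    simp only [List.mem_toFinset, List.mem_filter, List.mem_range, Function.comp_apply,
      Bool.and_eq_true] at hi
    refine ⟨⟨i, hi.1⟩, ?_, rfl⟩
    simp only [Inner.maskF, mem_filter, mem_univ, true_and]
    refine ⟨hi.2.2, ?_⟩
    have := hi.2.1
    rwa [List.getD_eq_getElem _ _ hi.1] at this

theorem cutL_sel {n : ℕ} {es : List (ℕ × ℕ)} (h : Loopless n es) (mask : List Bool)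
    (S : Finset (Fin n)) : cutL (sel es mask) (vals S) =
      (cutEdges (srcF h) (tgtF h) (Inner.maskF es.length mask) S).card := by
  rw [cutL, countP_sel, cutEdges]
  congr 1
  refine Finset.filter_congr fun i _ => ?_
  rw [crossB_iff, ← val_mem_vals (i := srcF h i), ← val_mem_vals (i := tgtF h i)]
  rfl

theorem image_range_eq {n : ℕ} (f : ℕ → ℕ) :
    (range n).image f = (univ : Finset (Fin n)).image fun v : Fin n => f v := by
  ext x
  simp only [mem_image, mem_range, mem_univ, true_and]
  exact ⟨fun ⟨a, ha, e⟩ => ⟨⟨a, ha⟩, e⟩, fun ⟨a, e⟩ => ⟨a, a.2, e⟩⟩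

/-- a counting function that agrees with the crossing edges of `A` -/
theorem pc_iff_of_count {n : ℕ} {es : List (ℕ × ℕ)} (h : Loopless n es) (t : ℝ)
    (A : Finset (Fin es.length)) (l : List (ℕ × ℕ))
    (hl : ∀ p : ℕ × ℕ → Bool, l.countP p = (A.filter fun i => p (es.get i) = true).card) :
    PCL n t l ↔ PC (srcF h) (tgtF h) t A := by
  have key : ∀ f : ℕ → ℕ, (l.countP fun e => decide (f e.1 ≠ f e.2)) =
      (cross (srcF h) (tgtF h) A univ fun v : Fin n => f v).card := by
    intro f
    rw [hl, cross]
    congr 1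
    refine Finset.filter_congr fun i _ => ?_
    simp [srcF, tgtF]
  constructor
  · intro H g
    obtain ⟨f, e⟩ : ∃ f : ℕ → ℕ, (fun v : Fin n => f v) = fun v : Fin n => (g v : ℕ) :=
      ⟨fun v => if hv : v < n then (g ⟨v, hv⟩ : ℕ) else 0, by funext v; simp⟩
    have H1 := H f
    rw [key, image_range_eq, e] at H1
    have e1 : ∀ u v : Fin n, ((g u : ℕ) = (g v : ℕ)) ↔ g u = g v := fun u v => Fin.val_inj
    rw [card_image_congr (S := univ) (f := fun v : Fin n => (g v : ℕ)) (g := g)
      (fun u _ v _ => e1 u v), cross_congr (S := univ) (f := fun v : Fin n => (g v : ℕ)) (g := g)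
      (fun u _ v _ => e1 u v)] at H1
    exact H1
  · intro H f
    rw [key, image_range_eq]
    exact H.label _

theorem pcl_iff {n : ℕ} {es : List (ℕ × ℕ)} (h : Loopless n es) (t : ℝ) :
    PCL n t es ↔ PC (srcF h) (tgtF h) t univ :=
  pc_iff_of_count h t univ es fun p => countP_eq_card es p

theorem pcl_sel {n : ℕ} {es : List (ℕ × ℕ)} (h : Loopless n es) (t : ℝ) (mask : List Bool) :
    PCL n t (sel es mask) ↔ PC (srcF h) (tgtF h) t (Inner.maskF es.length mask) :=
  pc_iff_of_count h t _ _ fun p => countP_sel es mask p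

theorem mset_eq (es : List (ℕ × ℕ)) (mask : List Bool) :
    mset es mask = Inner.maskF es.length mask := rfl

theorem PCL.of_le {n : ℕ} {t t' : ℝ} {es : List (ℕ × ℕ)} (h : PCL n t es) (hn : 1 ≤ n)
    (ht : t' ≤ t) : PCL n t' es := by
  intro f
  refine le_trans (mul_le_mul_of_nonneg_right ht ?_) (h f)
  have : 1 ≤ ((range n).image f).card :=
    card_pos.2 ((nonempty_range_iff.2 (by omega)).image f)
  have : (1 : ℝ) ≤ (((range n).image f).card : ℝ) := by exact_mod_cast this
  linarith

/-- a `t`-partition-connected list has cuts of size at least `t` -/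
theorem PCL.le_cutL {n : ℕ} {t : ℝ} {es : List (ℕ × ℕ)} (h : PCL n t es) {S : Finset ℕ}
    (hS : Proper n S) : t ≤ cutL es S := by
  have H := h fun v => if v ∈ S then 1 else 0
  have e1 : (range n).image (fun v => if v ∈ S then 1 else 0) = ({0, 1} : Finset ℕ) := by
    ext x
    simp only [mem_image, mem_range, mem_insert, mem_singleton]
    constructor
    · rintro ⟨a, -, rfl⟩
      split_ifs <;> simp
    · rintro (rfl | rfl)
      · obtain ⟨a, ha, ha'⟩ := exists_of_ssubset (ssubset_of_subset_of_ne hS.1 hS.2.2)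
        exact ⟨a, mem_range.1 ha, if_neg ha'⟩
      · obtain ⟨a, ha⟩ := hS.2.1
        exact ⟨a, mem_range.1 (hS.1 ha), if_pos ha⟩
  have e2 : (es.countP fun e => decide ((if e.1 ∈ S then 1 else 0 : ℕ) ≠
      if e.2 ∈ S then 1 else 0)) = cutL es S := by
    refine List.countP_congr fun e _ => ?_
    rw [crossB_iff]
    by_cases h1 : e.1 ∈ S <;> by_cases h2 : e.2 ∈ S <;> simp [h1, h2]
  rw [e1, e2] at H
  norm_num at H
  linarith

end Crest.Agent.X37.Half
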