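import Crest.Agent.X37.IO.Defs
import Crest.Agent.X37.Gr.Defs
import Crest.Agent.X37.PT.Mat

/-!
# Row 37: the halving step, interfaces

`MainStatement` (steps (0)-(3)), `LevStatement`, `LevPC` (step (4a), (4b)) and `KSStatement` are
consumed by the halving step `HalfStatement`, which the cascade turns into `CoreStatement`.
All bounds on resistances and leverages are stated without inverses.
-/

set_option autoImplicit false

namespace Crest.Agent.X37.Half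

open Crest.Agent.Lib.PT Crest.Agent.X37.IO Crest.Agent.X37.PT Matrix Finset
open Crest.CombinatoricsR.Multigraph

/-- the edges selected by a mask -/
def mset (es : List (ℕ × ℕ)) (mask : List Bool) : Finset (Fin es.length) :=
  univ.filter fun e => mask.getD e false = true

/-- the energy of `x` for a table of conductances (sum over ordered pairs) -/
noncomputable def enD (n : ℕ) (D : List (List ℚ)) (x : Fin n → ℝ) : ℝ :=
  ∑ u : Fin n, ∑ v : Fin n, ((ent D u v : ℚ) : ℝ) * (x u - x v) ^ 2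

/-- the indicator vector of a set -/
def ind {n : ℕ} (S : Finset (Fin n)) : Fin n → ℝ := fun v => if v ∈ S then 1 else 0

/-- **The main lemma** (greedy set, inner and outer loop): from a `(k + r ^ 11)`-partition-connected
edge list compute a `k`-partition-connected set `F` of edges and a cut-dominated table `D` of
conductances in which all edges of `F` have effective resistance at most `C / r ^ 3`. -/
def MainStatement : Prop :=
  ∃ (C r0 : ℕ) (main : Un × Un × ℕ × List (ℕ × ℕ) → List Bool × List (List ℚ)), PT main ∧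
    ∀ (n r k : ℕ) (es : List (ℕ × ℕ)) (h : Loopless n es), 2 ≤ n → r0 ≤ r → r ^ 11 ≤ k →
      k ≤ r ^ 13 → PC (srcF h) (tgtF h) ((k : ℝ) + (r : ℝ) ^ 11) univ →
      PC (srcF h) (tgtF h) k (mset es (main (⟨n⟩, ⟨r⟩, k, es)).1) ∧
      (∀ u v : Fin n, 0 ≤ ent (main (⟨n⟩, ⟨r⟩, k, es)).2 u v) ∧
      (∀ S : Finset (Fin n), enD n (main (⟨n⟩, ⟨r⟩, k, es)).2 (ind S) ≤
        (cutEdges (srcF h) (tgtF h) univ S).card) ∧
      ∀ e ∈ mset es (main (⟨n⟩, ⟨r⟩, k, es)).1, ∀ x : Fin n → ℝ,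
        (r : ℝ) ^ 3 * (x (srcF h e) - x (tgtF h e)) ^ 2 ≤
          C * enD n (main (⟨n⟩, ⟨r⟩, k, es)).2 x

/-- **Leverage balancing**: positive weights on a `k`-partition-connected set `F` with all
leverages at most `(1 + 1 / r) / k`. -/
def LevStatement : Prop :=
  ∃ lev : Un × Un × ℕ × List (ℕ × ℕ) × List Bool → List ℚ, PT lev ∧
    ∀ (n r k : ℕ) (es : List (ℕ × ℕ)) (mask : List Bool) (h : Loopless n es), 2 ≤ n → 1 ≤ r →
      1 ≤ k → PC (srcF h) (tgtF h) k (mset es mask) →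
      (∀ e ∈ mset es mask, 0 < vent (lev (⟨n⟩, ⟨r⟩, k, es, mask)) e) ∧
      ∀ e ∈ mset es mask, ∀ x : Fin n → ℝ,
        (k : ℝ) * (((vent (lev (⟨n⟩, ⟨r⟩, k, es, mask)) e : ℚ) : ℝ) *
            (x (srcF h e) - x (tgtF h e)) ^ 2) ≤
          (1 + 1 / (r : ℝ)) * ∑ f ∈ mset es mask,
            ((vent (lev (⟨n⟩, ⟨r⟩, k, es, mask)) f : ℚ) : ℝ) * (x (srcF h f) - x (tgtF h f)) ^ 2

/-- **Small leverages give partition connectivity.** -/
def LevPC : Prop :=
  ∀ (V E : Type) [Fintype V] [DecidableEq V] [Fintype E] [DecidableEq E] (src tgt : E → V)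
    (H : Finset E) (w : E → ℝ) (t : ℝ), 0 < t → (∀ e ∈ H, 0 ≤ w e) →
    (∀ x : V → ℝ, ∑ f ∈ H, w f * (x (src f) - x (tgt f)) ^ 2 ≤ 0 → ∀ u v, x u = x v) →
    (∀ e ∈ H, ∀ x : V → ℝ,
      t * (w e * (x (src e) - x (tgt e)) ^ 2) ≤ ∑ f ∈ H, w f * (x (src f) - x (tgt f)) ^ 2) →
    PC src tgt t H

/-- one block of a discrepancy instance: the matrix `M`, the vectors (row `e` is the vector of
the index `e`) and their weights -/
abbrev Blk : Type := List (List ℚ) × List (List ℚ) × List ℚ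

/-- the matrix of a block -/
def Blk.mat (d : ℕ) (B : Blk) : Matrix (Fin d) (Fin d) ℝ := matR d (ent B.1)

/-- vector number `e` of a block -/
def Blk.vec (d : ℕ) (B : Blk) (e : ℕ) : Fin d → ℝ := fun i => ((ent B.2.1 e i : ℚ) : ℝ)

/-- the rank-one form `w e * ⟨v e, x⟩ ^ 2` -/
noncomputable def Blk.term (d : ℕ) (B : Blk) (e : ℕ) (x : Fin d → ℝ) : ℝ :=
  ((vent B.2.2 e : ℚ) : ℝ) * (B.vec d e ⬝ᵥ x) ^ 2

/-- the quadratic form of the matrix of a block -/
noncomputable def Blk.form (d : ℕ) (B : Blk) (x : Fin d → ℝ) : ℝ := x ⬝ᵥ B.mat d *ᵥ x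

/-- the hypotheses on a block: `M` positive definite, `∑ w v vᵀ ≤ M`, each `w v vᵀ ≤ ε M` -/
structure Blk.OK (d m : ℕ) (ε : ℝ) (B : Blk) : Prop where
  pd : (B.mat d).PosDef
  w_nonneg : ∀ e : Fin m, 0 ≤ vent B.2.2 e
  sum_le : ∀ x, ∑ e : Fin m, B.term d e x ≤ B.form d x
  lev : ∀ (e : Fin m) (x : Fin d → ℝ), B.term d e x ≤ ε * B.form d x

/-- the sign given by a mask -/
def sgn (mask : List Bool) (e : ℕ) : ℝ := if mask.getD e false = true then 1 else -1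

/-- **Two-block discrepancy theorem**, algorithmic form. -/
def KSStatement : Prop :=
  ∃ (c : ℕ) (ks : Un × Un × Un × Blk × Blk → List Bool), 1 ≤ c ∧ PT ks ∧
    ∀ (d m R : ℕ) (B₁ B₂ : Blk), 1 ≤ R → B₁.OK d m (1 / ((c : ℝ) * (R : ℝ) ^ 2)) →
      B₂.OK d m (1 / ((c : ℝ) * (R : ℝ) ^ 2)) → ∀ x : Fin d → ℝ,
      ∑ e : Fin m, sgn (ks (⟨d⟩, ⟨m⟩, ⟨R⟩, B₁, B₂)) e * B₁.term d e x ≤ c / R * B₁.form d x ∧
      -∑ e : Fin m, sgn (ks (⟨d⟩, ⟨m⟩, ⟨R⟩, B₁, B₂)) e * B₂.term d e x ≤ c / R * B₂.form d x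

/-- partition connectivity of an edge list on the vertices `0, …, n - 1` -/
def PCL (n : ℕ) (t : ℝ) (es : List (ℕ × ℕ)) : Prop :=
  ∀ f : ℕ → ℕ, t * ((((range n).image f).card : ℝ) - 1) ≤
    (es.countP fun e => decide (f e.1 ≠ f e.2) : ℕ)

/-- **One halving step.** -/
def HalfStatement : Prop :=
  ∃ (A r0 : ℕ) (half : Un × Un × ℕ × List (ℕ × ℕ) → List (ℕ × ℕ)), PT half ∧
    ∀ (n r t : ℕ) (es : List (ℕ × ℕ)), Loopless n es → 2 ≤ n → r0 ≤ r → r ^ 12 ≤ t →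
      t ≤ r ^ 13 → PCL n t es →
      (half (⟨n⟩, ⟨r⟩, t, es)).Sublist es ∧
      PCL n ((1 - (A : ℝ) / r) * t / 2) (half (⟨n⟩, ⟨r⟩, t, es)) ∧
      ∀ S, Proper n S →
        (cutL (half (⟨n⟩, ⟨r⟩, t, es)) S : ℝ) ≤ (1 + (A : ℝ) / r) / 2 * cutL es S

end Crest.Agent.X37.Half
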